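import Mathlib

/-!
P092 (helper428), block [N] of helper175's T2 plan: comparison of normalised families.
-/

namespace Vale.Agent.P092.H428

open Finset

section
variable {ι : Type*} (u v : ι → ℝ)

lemma tsum_pos_of {u : ι → ℝ} (hu : ∀ i, 0 < u i) (su : Summable u) [Nonempty ι] :
    0 < ∑' j, u j := by
  obtain ⟨i⟩ := (inferInstance : Nonempty ι)
  exact su.tsum_pos (fun j => (hu j).le) i (hu i)

/-- Pointwise form of `norm_compare`. -/
theorem norm_compare_pt (hu : ∀ i, 0 < u i) (hv : ∀ i, 0 < v i) (su : Summable u)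
    (sv : Summable v) [Nonempty ι] {c ρ : ℝ} (hc : 0 < c) (hρ : 1 ≤ ρ)
    (h1 : ∀ i, c * u i ≤ ρ * v i) (h2 : ∀ i, v i ≤ ρ * (c * u i)) (i : ι) :
    |v i / ∑' j, v j - u i / ∑' j, u j| ≤ (ρ ^ 2 - 1) * (u i / ∑' j, u j) := by
  have hU : 0 < ∑' j, u j := tsum_pos_of hu su
  have hV : 0 < ∑' j, v j := tsum_pos_of hv sv
  have hρ0 : 0 < ρ := lt_of_lt_of_le one_pos hρ
  -- sums
  have s1 : c * ∑' j, u j ≤ ρ * ∑' j, v j := by
    rw [← tsum_mul_left, ← tsum_mul_left]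
    exact (su.mul_left c).tsum_le_tsum h1 (sv.mul_left ρ)
  have s2 : ∑' j, v j ≤ ρ * (c * ∑' j, u j) := by
    have h : ∑' j, v j ≤ ∑' j, ρ * (c * u j) :=
      sv.tsum_le_tsum h2 ((su.mul_left c).mul_left ρ)
    rwa [tsum_mul_left, tsum_mul_left] at h
  set U := ∑' j, u j with hUdef
  set V := ∑' j, v j with hVdef
  have hui := hu i
  have hvi := hv i
  -- upper bound: v / V ≤ ρ^2 u / U
  have hup : v i / V ≤ ρ ^ 2 * (u i / U) := by
    rw [mul_div_assoc', div_le_div_iff₀ hV hU]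
    calc v i * U ≤ ρ * (c * u i) * U := mul_le_mul_of_nonneg_right (h2 i) hU.le
      _ = ρ * u i * (c * U) := by ring
      _ ≤ ρ * u i * (ρ * V) := mul_le_mul_of_nonneg_left s1 (mul_pos hρ0 hui).le
      _ = ρ ^ 2 * u i * V := by ring
  have hlo : u i / U ≤ ρ ^ 2 * (v i / V) := by
    rw [mul_div_assoc', div_le_div_iff₀ hU hV]
    have : c * (u i * V) ≤ c * (ρ ^ 2 * v i * U) := by
      calc c * (u i * V) = (c * u i) * V := by ring
        _ ≤ (ρ * v i) * V := mul_le_mul_of_nonneg_right (h1 i) hV.le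
        _ ≤ (ρ * v i) * (ρ * (c * U)) := mul_le_mul_of_nonneg_left s2 (mul_pos hρ0 hvi).le
        _ = c * (ρ ^ 2 * v i * U) := by ring
    exact le_of_mul_le_mul_left this hc
  have hρ2 : 1 ≤ ρ ^ 2 := one_le_pow₀ hρ
  have hu0 : 0 ≤ u i / U := (div_pos hui hU).le
  rw [abs_le]
  constructor
  · -- -(ρ²-1) u/U ≤ v/V - u/U
    have h3 : u i / U / ρ ^ 2 ≤ v i / V := by
      rw [div_le_iff₀ (by positivity)]
      linarith [mul_comm (v i / V) (ρ ^ 2)]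
    have h4 : u i / U - (ρ ^ 2 - 1) * (u i / U) ≤ u i / U / ρ ^ 2 := by
      rw [le_div_iff₀ (by positivity)]
      nlinarith [mul_nonneg hu0 (sq_nonneg (ρ ^ 2 - 1))]
    linarith
  · linarith

/-- Block [N] of helper175's table. -/
theorem norm_compare (hu : ∀ i, 0 < u i) (hv : ∀ i, 0 < v i) (su : Summable u)
    (sv : Summable v) [Nonempty ι] {c ρ : ℝ} (hc : 0 < c) (hρ : 1 ≤ ρ)
    (h1 : ∀ i, c * u i ≤ ρ * v i) (h2 : ∀ i, v i ≤ ρ * (c * u i)) (T : Finset ι) :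
    ∑ i ∈ T, |v i / ∑' j, v j - u i / ∑' j, u j| ≤ ρ ^ 2 - 1 := by
  have hU : 0 < ∑' j, u j := tsum_pos_of hu su
  have hρ2 : 0 ≤ ρ ^ 2 - 1 := sub_nonneg.mpr (one_le_pow₀ hρ)
  calc ∑ i ∈ T, |v i / ∑' j, v j - u i / ∑' j, u j|
      ≤ ∑ i ∈ T, (ρ ^ 2 - 1) * (u i / ∑' j, u j) :=
        Finset.sum_le_sum fun i _ => norm_compare_pt u v hu hv su sv hc hρ h1 h2 i
    _ = (ρ ^ 2 - 1) * ((∑ i ∈ T, u i) / ∑' j, u j) := by
        rw [← Finset.mul_sum, Finset.sum_div]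
    _ ≤ (ρ ^ 2 - 1) * 1 := by
        refine mul_le_mul_of_nonneg_left ?_ hρ2
        rw [div_le_one hU]
        exact su.sum_le_tsum T fun j _ => (hu j).le
    _ = ρ ^ 2 - 1 := mul_one _

end

end Vale.Agent.P092.H428
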