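import Mathlib
import Vale.Agent.P092.H132.T1

/-!
P092 (helper428), block [C] of helper553's plan: slowly varying cut-off functions of the
regular region.
-/

namespace Vale.Agent.P092.H428

open Vale.Agent.P092.H553 Vale.Agent.P092.H132 Filter Topology

/-- `γ(g) = min (log G12, log G23)`. -/
noncomputable def gam (g : G3) : ℝ := min (Real.log (G12 g)) (Real.log (G23 g))

/-- The cut-off. -/
noncomputable def chi (k : ℕ) (g : G3) : ℝ :=
  if k < 2 then 1 else max 0 (min 1 (2 * gam g / Real.log k - 1))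

/-- Constant for the two sided translation by `s`, `t`. -/
noncomputable def cc (s t : G3) : ℝ :=
  |Real.log (rA s)| + |Real.log (rA t)| + |Real.log (rA s⁻¹)| + |Real.log (rA t⁻¹)|

lemma log_rA_mul_le (s g t : G3) :
    Real.log (rA (s * g * t)) ≤ Real.log (rA s) + Real.log (rA g) + Real.log (rA t) := by
  have h : rA (s * g * t) ≤ rA s * rA g * rA t :=
    (rA_mul_le _ _).trans (mul_le_mul_of_nonneg_right (rA_mul_le _ _) (rA_pos t).le)
  have h2 := Real.log_le_log (rA_pos _) h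
  rwa [Real.log_mul (mul_pos (rA_pos s) (rA_pos g)).ne' (rA_pos t).ne',
    Real.log_mul (rA_pos s).ne' (rA_pos g).ne'] at h2

lemma abs_log_rA (s g t : G3) :
    |Real.log (rA (s * g * t)) - Real.log (rA g)| ≤ cc s t := by
  have h1 := log_rA_mul_le s g t
  have h2 := log_rA_mul_le s⁻¹ (s * g * t) t⁻¹
  have h3 : s⁻¹ * (s * g * t) * t⁻¹ = g := by group
  rw [h3] at h2
  have a1 := le_abs_self (Real.log (rA s))
  have a2 := le_abs_self (Real.log (rA t))
  have a3 := le_abs_self (Real.log (rA s⁻¹))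
  have a4 := le_abs_self (Real.log (rA t⁻¹))
  have b1 := abs_nonneg (Real.log (rA s))
  have b2 := abs_nonneg (Real.log (rA t))
  have b3 := abs_nonneg (Real.log (rA s⁻¹))
  have b4 := abs_nonneg (Real.log (rA t⁻¹))
  rw [abs_le, cc]
  constructor <;> linarith

lemma abs_log_rB (s g t : G3) :
    |Real.log (rB (s * g * t)) - Real.log (rB g)| ≤ cc t⁻¹ s⁻¹ := by
  have h := abs_log_rA t⁻¹ g⁻¹ s⁻¹
  have h3 : t⁻¹ * g⁻¹ * s⁻¹ = (s * g * t)⁻¹ := by group
  rw [h3, rA_inv, rA_inv] at h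
  exact h

lemma log_G12 (g : G3) : Real.log (G12 g) = 2 * Real.log (rA g) - Real.log (rB g) := by
  rw [G12, Real.log_div (pow_pos (rA_pos g) 2).ne' (rB_pos g).ne', Real.log_pow]
  push_cast
  ring

lemma log_G23 (g : G3) : Real.log (G23 g) = 2 * Real.log (rB g) - Real.log (rA g) := by
  rw [G23, Real.log_div (pow_pos (rB_pos g) 2).ne' (rA_pos g).ne', Real.log_pow]
  push_cast
  ring

lemma abs_gam (s g t : G3) :
    |gam (s * g * t) - gam g| ≤ 2 * (cc s t + cc t⁻¹ s⁻¹) := by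
  have hA := abs_log_rA s g t
  have hB := abs_log_rB s g t
  have h0 : 0 ≤ cc s t := (abs_nonneg _).trans hA
  have h0' : 0 ≤ cc t⁻¹ s⁻¹ := (abs_nonneg _).trans hB
  rw [abs_le] at hA hB
  refine (abs_min_sub_min_le_max _ _ _ _).trans (max_le ?_ ?_)
  · rw [log_G12, log_G12, abs_le]
    constructor <;> linarith [hA.1, hA.2, hB.1, hB.2]
  · rw [log_G23, log_G23, abs_le]
    constructor <;> linarith [hA.1, hA.2, hB.1, hB.2]

lemma abs_clamp (x y : ℝ) : |max 0 (min 1 x) - max 0 (min 1 y)| ≤ |x - y| := by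
  refine (abs_max_sub_max_le_max _ _ _ _).trans (max_le (by simp) ?_)
  exact (abs_min_sub_min_le_max _ _ _ _).trans (max_le (by simp) le_rfl)

theorem chi_mem (k : ℕ) (g : G3) : 0 ≤ chi k g ∧ chi k g ≤ 1 := by
  unfold chi
  split_ifs
  · exact ⟨zero_le_one, le_rfl⟩
  · exact ⟨le_max_left _ _, max_le zero_le_one (min_le_left _ _)⟩

lemma le_gam {R : ℝ} (hR : 0 < R) {g : G3} (h : Reg R g) : Real.log R ≤ gam g :=
  le_min (Real.log_le_log hR h.1) (Real.log_le_log hR h.2)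

theorem chi_eq_one (k : ℕ) (g : G3) (h : Reg ((k : ℕ) : ℝ) g) : chi k g = 1 := by
  unfold chi
  split_ifs with hk
  · rfl
  · have hk2 : 2 ≤ k := not_lt.mp hk
    have hkr : (2 : ℝ) ≤ (k : ℝ) := by exact_mod_cast hk2
    have hlog : 0 < Real.log k := Real.log_pos (by linarith)
    have h1 := le_gam (by linarith : (0 : ℝ) < (k : ℝ)) h
    have h2 : 1 ≤ 2 * gam g / Real.log k - 1 := by
      rw [le_sub_iff_add_le, le_div_iff₀ hlog]
      linarith
    rw [min_eq_left h2]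
    exact max_eq_right zero_le_one

lemma tendsto_log_nat : Tendsto (fun k : ℕ => Real.log (k : ℝ)) atTop atTop :=
  Real.tendsto_log_atTop.comp tendsto_natCast_atTop_atTop

theorem chi_ne_zero (R : ℝ) : ∀ᶠ k : ℕ in atTop, ∀ g, chi k g ≠ 0 → Reg R g := by
  filter_upwards [eventually_ge_atTop 2,
    tendsto_log_nat.eventually_ge_atTop (2 * Real.log (max R 1))] with k hk2 hk g hg
  have hkr : (2 : ℝ) ≤ (k : ℝ) := by exact_mod_cast hk2
  have hlog : 0 < Real.log k := Real.log_pos (by linarith)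
  have h1 : 0 < 2 * gam g / Real.log k - 1 := by
    by_contra hcon
    apply hg
    unfold chi
    rw [if_neg (not_lt.mpr hk2)]
    exact max_eq_left ((min_le_right _ _).trans (not_lt.mp hcon))
  have h2 : Real.log k < 2 * gam g := by
    have := (lt_div_iff₀ hlog).mp (by linarith : (1 : ℝ) < 2 * gam g / Real.log k)
    linarith
  have h3 : Real.log (max R 1) < gam g := by linarith
  have hpos : (0 : ℝ) < max R 1 := lt_of_lt_of_le one_pos (le_max_right _ _)
  have hG1 : 0 < G12 g := by linarith [G12_ge g]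
  have hG2 : 0 < G23 g := by linarith [G23_ge g]
  constructor
  · exact (le_max_left R 1).trans
      (((Real.log_lt_log_iff hpos hG1).mp (h3.trans_le (min_le_left _ _))).le)
  · exact (le_max_left R 1).trans
      (((Real.log_lt_log_iff hpos hG2).mp (h3.trans_le (min_le_right _ _))).le)

theorem chi_slow (s t : G3) (δ : ℝ) (hδ : 0 < δ) :
    ∀ᶠ k : ℕ in atTop, ∀ g, |chi k (s * g * t) - chi k g| ≤ δ := by
  filter_upwards [eventually_ge_atTop 2,
    tendsto_log_nat.eventually_ge_atTop (4 * (cc s t + cc t⁻¹ s⁻¹) / δ)] with k hk2 hk g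
  have hkr : (2 : ℝ) ≤ (k : ℝ) := by exact_mod_cast hk2
  have hlog : 0 < Real.log k := Real.log_pos (by linarith)
  unfold chi
  rw [if_neg (not_lt.mpr hk2), if_neg (not_lt.mpr hk2)]
  refine (abs_clamp _ _).trans ?_
  have h1 : 2 * gam (s * g * t) / Real.log k - 1 - (2 * gam g / Real.log k - 1)
      = 2 * (gam (s * g * t) - gam g) / Real.log k := by ring
  rw [h1, abs_div, abs_mul, abs_of_pos hlog, abs_of_pos (two_pos : (0 : ℝ) < 2),
    div_le_iff₀ hlog]
  have h2 := abs_gam s g t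
  have h3 : 4 * (cc s t + cc t⁻¹ s⁻¹) ≤ Real.log k * δ := (div_le_iff₀ hδ).mp hk
  linarith

/-- Block [C] of the plan. -/
theorem cutoff : ∃ χ : ℕ → G3 → ℝ, (∀ k g, 0 ≤ χ k g ∧ χ k g ≤ 1) ∧
    (∀ k g, Reg ((k : ℕ) : ℝ) g → χ k g = 1) ∧
    (∀ R : ℝ, ∀ᶠ k in atTop, ∀ g, χ k g ≠ 0 → Reg R g) ∧
    (∀ s t : G3, ∀ δ : ℝ, 0 < δ → ∀ᶠ k in atTop, ∀ g, |χ k (s * g * t) - χ k g| ≤ δ) :=
  ⟨chi, chi_mem, chi_eq_one, chi_ne_zero, chi_slow⟩

end Vale.Agent.P092.H428
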