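import Mathlib

/-!
P092 (helper428), block [G] of helper175's T2 plan: shifting a grid average.
-/

namespace Vale.Agent.P092.H428

open Finset

/-- One dimensional telescoping with values in finitely supported functions, natural shift. -/
lemma line_shift_nat {ι : Type*} (F : ℤ → ι → ℝ) (T : Finset ι) {c : ℝ}
    (h : ∀ x, ∑ i ∈ T, |F x i| ≤ c) (K m : ℕ) (a : ℤ) :
    ∑ i ∈ T, |∑ x ∈ range K, (F (x + (a + m)) i - F (x + a) i)| ≤ 2 * m * c := by
  induction m with
  | zero => simp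
  | succ m ih =>
    have hstep : ∀ i, ∑ x ∈ range K, (F (x + (a + (m + 1 : ℕ))) i - F (x + (a + m)) i)
        = F (K + (a + m)) i - F (a + m) i := by
      intro i
      have h1 := Finset.sum_range_sub (fun x : ℕ => F ((x : ℤ) + (a + m)) i) K
      rw [show F (a + m) i = F (((0 : ℕ) : ℤ) + (a + m)) i by simp, ← h1]
      refine Finset.sum_congr rfl fun x _ => ?_
      rw [show ((x : ℤ) + (a + ((m + 1 : ℕ) : ℤ))) = (((x + 1 : ℕ) : ℤ) + (a + m)) by
        push_cast; ring]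
    have hsplit : ∀ i, ∑ x ∈ range K, (F (x + (a + (m + 1 : ℕ))) i - F (x + a) i)
        = (F (K + (a + m)) i - F (a + m) i) + ∑ x ∈ range K, (F (x + (a + m)) i - F (x + a) i) := by
      intro i
      rw [← hstep i, ← Finset.sum_add_distrib]
      exact Finset.sum_congr rfl fun x _ => by ring
    calc ∑ i ∈ T, |∑ x ∈ range K, (F (x + (a + (m + 1 : ℕ))) i - F (x + a) i)|
        ≤ ∑ i ∈ T, ((|F (K + (a + m)) i| + |F (a + m) i|)
            + |∑ x ∈ range K, (F (x + (a + m)) i - F (x + a) i)|) := by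
          refine Finset.sum_le_sum fun i _ => ?_
          rw [hsplit i]
          refine (abs_add_le _ _).trans (add_le_add_left (abs_sub _ _) _)
      _ = (∑ i ∈ T, |F (K + (a + m)) i| + ∑ i ∈ T, |F (a + m) i|)
            + ∑ i ∈ T, |∑ x ∈ range K, (F (x + (a + m)) i - F (x + a) i)| := by
          rw [Finset.sum_add_distrib, Finset.sum_add_distrib]
      _ ≤ (c + c) + 2 * m * c := add_le_add (add_le_add (h _) (h _)) ih
      _ = 2 * ((m + 1 : ℕ) : ℝ) * c := by push_cast; ring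

lemma line_shift {ι : Type*} (F : ℤ → ι → ℝ) (T : Finset ι) {c : ℝ}
    (h : ∀ x, ∑ i ∈ T, |F x i| ≤ c) (K : ℕ) (m : ℤ) :
    ∑ i ∈ T, |∑ x ∈ range K, (F (x + m) i - F x i)| ≤ 2 * |(m : ℝ)| * c := by
  obtain ⟨n, rfl | rfl⟩ := Int.eq_nat_or_neg m
  · have h1 := line_shift_nat F T h K n 0
    simpa using h1
  · have h1 := line_shift_nat F T h K n (-(n : ℤ))
    simp only [neg_add_cancel, add_zero] at h1
    have h2 : ∀ i, |∑ x ∈ range K, (F ((x : ℤ) + -(n : ℤ)) i - F x i)|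
        = |∑ x ∈ range K, (F x i - F ((x : ℤ) + -(n : ℤ)) i)| := by
      intro i
      rw [← abs_neg, ← Finset.sum_neg_distrib]
      congr 1
      exact Finset.sum_congr rfl fun x _ => by ring
    simp only [h2]
    simpa using h1

/-- Block [G] of helper175's table. -/
theorem grid_shift {ι : Type*} (F : ℤ → ℤ → ι → ℝ) (T : Finset ι)
    (h : ∀ x y, ∑ i ∈ T, |F x y i| ≤ 1) (K : ℕ) (m n : ℤ) :
    ∑ i ∈ T, |∑ x ∈ Finset.range K, ∑ y ∈ Finset.range K, (F (x + m) (y + n) i - F x y i)|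
      ≤ 2 * K * (|(m : ℝ)| + |(n : ℝ)|) := by
  have h1 : ∑ i ∈ T, |∑ x ∈ range K, ∑ y ∈ range K, (F (x + m) (y + n) i - F x (y + n) i)|
      ≤ 2 * |(m : ℝ)| * K := by
    have := line_shift (fun x i => ∑ y ∈ range K, F x ((y : ℤ) + n) i) T (c := K) (fun x => by
      calc ∑ i ∈ T, |∑ y ∈ range K, F x ((y : ℤ) + n) i|
          ≤ ∑ i ∈ T, ∑ y ∈ range K, |F x ((y : ℤ) + n) i| :=
            Finset.sum_le_sum fun i _ => Finset.abs_sum_le_sum_abs _ _
        _ = ∑ y ∈ range K, ∑ i ∈ T, |F x ((y : ℤ) + n) i| := Finset.sum_comm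
        _ ≤ ∑ y ∈ range K, (1 : ℝ) := Finset.sum_le_sum fun y _ => h _ _
        _ = K := by simp) K m
    simpa only [Finset.sum_sub_distrib] using this
  have h2 : ∑ i ∈ T, |∑ x ∈ range K, ∑ y ∈ range K, (F x (y + n) i - F x y i)|
      ≤ 2 * |(n : ℝ)| * K := by
    have := line_shift (fun y i => ∑ x ∈ range K, F (x : ℤ) y i) T (c := K) (fun y => by
      calc ∑ i ∈ T, |∑ x ∈ range K, F (x : ℤ) y i|
          ≤ ∑ i ∈ T, ∑ x ∈ range K, |F (x : ℤ) y i| :=
            Finset.sum_le_sum fun i _ => Finset.abs_sum_le_sum_abs _ _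
        _ = ∑ x ∈ range K, ∑ i ∈ T, |F (x : ℤ) y i| := Finset.sum_comm
        _ ≤ ∑ x ∈ range K, (1 : ℝ) := Finset.sum_le_sum fun y _ => h _ _
        _ = K := by simp) K n
    have h3 : ∀ i, ∑ x ∈ range K, ∑ y ∈ range K, (F (x : ℤ) ((y : ℤ) + n) i - F x y i)
        = ∑ y ∈ range K, (∑ x ∈ range K, F (x : ℤ) ((y : ℤ) + n) i - ∑ x ∈ range K, F x y i) := by
      intro i
      rw [Finset.sum_comm]
      exact Finset.sum_congr rfl fun y _ => Finset.sum_sub_distrib _ _
    simp only [h3]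
    exact this
  calc ∑ i ∈ T, |∑ x ∈ range K, ∑ y ∈ range K, (F (x + m) (y + n) i - F x y i)|
      ≤ ∑ i ∈ T, (|∑ x ∈ range K, ∑ y ∈ range K, (F (x + m) (y + n) i - F x (y + n) i)|
          + |∑ x ∈ range K, ∑ y ∈ range K, (F x (y + n) i - F x y i)|) := by
        refine Finset.sum_le_sum fun i _ => ?_
        have h4 : ∑ x ∈ range K, ∑ y ∈ range K, (F ((x : ℤ) + m) ((y : ℤ) + n) i - F x y i)
            = ∑ x ∈ range K, ∑ y ∈ range K, (F ((x : ℤ) + m) ((y : ℤ) + n) i - F x (y + n) i)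
              + ∑ x ∈ range K, ∑ y ∈ range K, (F (x : ℤ) ((y : ℤ) + n) i - F x y i) := by
          rw [← Finset.sum_add_distrib]
          refine Finset.sum_congr rfl fun x _ => ?_
          rw [← Finset.sum_add_distrib]
          exact Finset.sum_congr rfl fun y _ => by ring
        rw [h4]
        exact abs_add_le _ _
    _ ≤ 2 * |(m : ℝ)| * K + 2 * |(n : ℝ)| * K := by
        rw [Finset.sum_add_distrib]
        exact add_le_add h1 h2
    _ = 2 * K * (|(m : ℝ)| + |(n : ℝ)|) := by ring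

end Vale.Agent.P092.H428
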